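import Vale.Agent.P281.H83.HK.Spec
import Vale.Agent.P281.H834.HK.Kfd

/-!
# P281, project T-HK, block I0 (helper406): the forms of the theory are smooth closed 2-forms
-/

open Set Filter Metric MeasureTheory Vale.Agent.P272.K
open scoped Topology ContDiff ComplexConjugate ComplexOrder

noncomputable section

namespace Vale.Agent.P281.H406.HK

open Vale.Agent.P281.H64.TK Vale.Agent.P281.H64.TK.TS Vale.Agent.P281.H83.HK
open Vale.Agent.P281.H702.TS (sm2 fd2 fd_dz Tr_eq Tr_fderiv hol_smooth)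

variable {d : ℕ}

/-! ### Holomorphic 2-forms -/

theorem tf_apply (m : Matrix (Fin d) (Fin d) ℂ) (u v : Cm d) :
    tf m u v = ∑ j, ∑ k, m j k * (u j * v k) := rfl

theorem tf_dot (m : Matrix (Fin d) (Fin d) ℂ) (u v : Cm d) : tf m u v = u ⬝ᵥ m.mulVec v := by
  rw [tf_apply, dotProduct]
  refine Finset.sum_congr rfl fun j _ => ?_
  rw [Matrix.mulVec, dotProduct, Finset.mul_sum]
  exact Finset.sum_congr rfl fun k _ => by ring

theorem tf_alt {m : Matrix (Fin d) (Fin d) ℂ} (hm : m.transpose = -m) (u v : Cm d) :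
    tf m u v = -tf m v u := by
  rw [tf_apply, tf_apply, Finset.sum_comm, ← Finset.sum_neg_distrib]
  refine Finset.sum_congr rfl fun j _ => ?_
  rw [← Finset.sum_neg_distrib]
  refine Finset.sum_congr rfl fun k _ => ?_
  have h : m k j = -m j k := by
    have := congrFun (congrFun hm j) k
    simpa using this
  rw [h]
  ring

theorem tf_change {m J : Matrix (Fin d) (Fin d) ℂ} {u v u' v' : Cm d}
    (hu : ∀ a, u' a = ∑ b, J a b * u b) (hv : ∀ a, v' a = ∑ b, J a b * v b) :
    tf (J.transpose * m * J) u v = tf m u' v' := by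
  have h1 : u' = J.mulVec u := funext hu
  have h2 : v' = J.mulVec v := funext hv
  rw [tf_dot, tf_dot, h1, h2, Matrix.mul_assoc, ← Matrix.mulVec_mulVec,
    Matrix.dotProduct_mulVec, Matrix.vecMul_transpose, Matrix.mulVec_mulVec]

theorem fderiv_hol {f : Cm d → ℂ} {z : Cm d} (h : DifferentiableAt ℂ f z) (u : Cm d) :
    fderiv ℝ f z u = ∑ l, dd l f z * u l := by
  rw [(h.hasFDerivAt.restrictScalars ℝ).fderiv]
  show fderiv ℂ f z u = _
  conv_lhs => rw [pi_eq_sum_univ' u]
  rw [map_sum]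
  refine Finset.sum_congr rfl fun l _ => ?_
  rw [map_smul, smul_eq_mul, mul_comm]
  rfl

theorem fderiv_tf {s : Cm d → Matrix (Fin d) (Fin d) ℂ} {z : Cm d}
    (hs : ∀ j k, DifferentiableAt ℂ (fun z => s z j k) z)
    (hd : DifferentiableAt ℝ (fun z => tf (s z)) z) (u v x : Cm d) :
    fderiv ℝ (fun z => tf (s z)) z u v x =
      ∑ j, ∑ k, ∑ l, dd l (fun z => s z j k) z * (u l * v j * x k) := by
  rw [fd2 hd]
  have h2 : HasFDerivAt (fun z => tf (s z) v x) (∑ j, ∑ k,
      (v j * x k) • fderiv ℝ (fun z => s z j k) z) z := by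
    have h3 : (fun z => tf (s z) v x) = fun z => ∑ j, ∑ k, s z j k * (v j * x k) := rfl
    rw [h3]
    refine HasFDerivAt.fun_sum fun j _ => HasFDerivAt.fun_sum fun k _ => ?_
    exact ((hs j k).hasFDerivAt.restrictScalars ℝ).differentiableAt.hasFDerivAt.mul_const _
  rw [h2.fderiv]
  simp only [sum_apply, smul_apply, smul_eq_mul]
  refine Finset.sum_congr rfl fun j _ => Finset.sum_congr rfl fun k _ => ?_
  rw [fderiv_hol (hs j k), Finset.mul_sum]
  exact Finset.sum_congr rfl fun l _ => by ring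

theorem tf_closed {s : Cm d → Matrix (Fin d) (Fin d) ℂ} {z : Cm d}
    (hs : ∀ j k, DifferentiableAt ℂ (fun z => s z j k) z)
    (hd : DifferentiableAt ℝ (fun z => tf (s z)) z)
    (hc : ∀ j k l, dd l (fun z => s z j k) z + dd j (fun z => s z k l) z +
      dd k (fun z => s z l j) z = 0) (u v x : Cm d) :
    fderiv ℝ (fun z => tf (s z)) z u v x + fderiv ℝ (fun z => tf (s z)) z v x u +
      fderiv ℝ (fun z => tf (s z)) z x u v = 0 := by
  rw [fderiv_tf hs hd, fderiv_tf hs hd, fderiv_tf hs hd]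
  -- the second sum: `j → k`, `k → l`, `l → j`
  have e2 : ∑ j, ∑ k, ∑ l, dd l (fun z => s z j k) z * (v l * x j * u k) =
      ∑ j, ∑ k, ∑ l, dd j (fun z => s z k l) z * (u l * v j * x k) := by
    calc ∑ j, ∑ k, ∑ l, dd l (fun z => s z j k) z * (v l * x j * u k)
        = ∑ k, ∑ l, ∑ j, dd j (fun z => s z k l) z * (v j * x k * u l) := rfl
      _ = ∑ k, ∑ j, ∑ l, dd j (fun z => s z k l) z * (v j * x k * u l) :=
          Finset.sum_congr rfl fun k _ => Finset.sum_comm
      _ = ∑ j, ∑ k, ∑ l, dd j (fun z => s z k l) z * (v j * x k * u l) := Finset.sum_comm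
      _ = _ := Finset.sum_congr rfl fun j _ => Finset.sum_congr rfl fun k _ =>
          Finset.sum_congr rfl fun l _ => by ring
  have e3 : ∑ j, ∑ k, ∑ l, dd l (fun z => s z j k) z * (x l * u j * v k) =
      ∑ j, ∑ k, ∑ l, dd k (fun z => s z l j) z * (u l * v j * x k) := by
    calc ∑ j, ∑ k, ∑ l, dd l (fun z => s z j k) z * (x l * u j * v k)
        = ∑ l, ∑ j, ∑ k, dd k (fun z => s z l j) z * (x k * u l * v j) := rfl
      _ = ∑ j, ∑ l, ∑ k, dd k (fun z => s z l j) z * (x k * u l * v j) := Finset.sum_comm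
      _ = ∑ j, ∑ k, ∑ l, dd k (fun z => s z l j) z * (x k * u l * v j) :=
          Finset.sum_congr rfl fun j _ => Finset.sum_comm
      _ = _ := Finset.sum_congr rfl fun j _ => Finset.sum_congr rfl fun k _ =>
          Finset.sum_congr rfl fun l _ => by ring
  rw [e2, e3, ← Finset.sum_add_distrib, ← Finset.sum_add_distrib]
  refine Finset.sum_eq_zero fun j _ => ?_
  rw [← Finset.sum_add_distrib, ← Finset.sum_add_distrib]
  refine Finset.sum_eq_zero fun k _ => ?_
  rw [← Finset.sum_add_distrib, ← Finset.sum_add_distrib]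
  refine Finset.sum_eq_zero fun l _ => ?_
  rw [← add_mul, ← add_mul, hc j k l, zero_mul]

section
variable {E Γ : Type} [TopologicalSpace E] [Group Γ] [MulAction Γ E] {S : Sheets d E Γ}

/-- **closed holomorphic 2-forms are closed 2-forms** -/
theorem ts_cl2 {s : Fin S.N → Cm d → Matrix (Fin d) (Fin d) ℂ} (hs : Hol2 S s) :
    Cl2 S (ts s) := by
  have hsm : ∀ i, ContDiffOn ℝ ∞ (fun z => tf (s i z)) (ball (0 : Cm d) 3) := by
    intro i
    refine sm2 fun u v => ?_
    simp only [tf_apply]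
    exact ContDiffOn.sum fun j _ => ContDiffOn.sum fun k _ =>
      (hol_smooth (hs.hol i j k)).mul contDiffOn_const
  refine ⟨⟨?_, ?_, ?_⟩, ?_⟩
  · intro i z hz _
    exact (hsm i).contDiffAt (isOpen_ball.mem_nhds hz)
  · intro i z hz _ u v
    exact tf_alt (hs.alt i z hz) u v
  · intro i j z hz z' hz' _ ψ hψ u v
    obtain ⟨h0, h1, h2, h3, -⟩ := Tr_eq S hz hz' hψ
    show tf (s i z) u v = tf (s j z') _ _
    rw [hs.change i j z hz z' hz' _ h2 h1 h3]
    exact tf_change (Tr_fderiv S hz hz' hψ u) (Tr_fderiv S hz hz' hψ v)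
  · intro i z hz u v x
    exact tf_closed (fun j k => (hs.hol i j k).differentiableAt (isOpen_ball.mem_nhds hz))
      (((hsm i).contDiffAt (isOpen_ball.mem_nhds hz)).differentiableAt (by simp))
      (hs.closed i z hz) u v x

/-! ### Conjugate forms -/

theorem cj_apply (a : L2 d) (u v : Cm d) : cj a u v = conj (a u v) := rfl

theorem hasFDerivAt_conj {f : Cm d → ℂ} {z : Cm d} {f' : Cm d →L[ℝ] ℂ} (h : HasFDerivAt f f' z) :
    HasFDerivAt (fun z => conj (f z)) (Complex.conjCLE.toContinuousLinearMap.comp f') z :=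
  Complex.conjCLE.toContinuousLinearMap.hasFDerivAt.comp z h

theorem cj_smooth {a : Cm d → L2 d} {U : Set (Cm d)} (hU : IsOpen U)
    (h : ∀ z ∈ U, ContDiffAt ℝ ∞ a z) {z : Cm d} (hz : z ∈ U) :
    ContDiffAt ℝ ∞ (fun z => cj (a z)) z := by
  have h1 : ContDiffOn ℝ ∞ (fun z => cj (a z)) U := by
    refine sm2 fun u v y hy => ContDiffAt.contDiffWithinAt ?_
    have h2 : ContDiffAt ℝ ∞ (fun z => a z u v) y :=
      ((h y hy).clm_apply contDiffAt_const).clm_apply contDiffAt_const
    exact Complex.conjCLE.contDiff.contDiffAt.comp y h2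
  exact h1.contDiffAt (hU.mem_nhds hz)

theorem fderiv_cj {a : Cm d → L2 d} {U : Set (Cm d)} (hU : IsOpen U)
    (h : ∀ z ∈ U, ContDiffAt ℝ ∞ a z) {z : Cm d} (hz : z ∈ U) (u v x : Cm d) :
    fderiv ℝ (fun z => cj (a z)) z u v x = conj (fderiv ℝ a z u v x) := by
  have h1 : DifferentiableAt ℝ a z := (h z hz).differentiableAt (by simp)
  rw [fd2 ((cj_smooth hU h hz).differentiableAt (by simp)), fd2 h1]
  have h2 : DifferentiableAt ℝ (fun z => a z v x) z :=
    (h1.clm_apply (differentiableAt_const v)).clm_apply (differentiableAt_const x)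
  have h3 := hasFDerivAt_conj h2.hasFDerivAt
  show fderiv ℝ (fun z => conj (a z v x)) z u = _
  rw [h3.fderiv]
  rfl

/-- **the conjugate of a closed form is closed** -/
theorem cjs_cl2 {a : Fin S.N → Cm d → L2 d} (ha : Cl2 S a) : Cl2 S (cjs a) := by
  refine ⟨⟨?_, ?_, ?_⟩, ?_⟩
  · intro i z hz hV
    exact cj_smooth isOpen_ball (fun y hy => ha.smooth i y hy (mem_univ _)) hz
  · intro i z hz hV u v
    show conj (a i z u v) = -conj (a i z v u)
    rw [ha.alt i z hz hV u v, map_neg]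
  · intro i j z hz z' hz' hV ψ hψ u v
    show conj (a i z u v) = conj (a j z' _ _)
    rw [ha.change i j z hz z' hz' hV ψ hψ u v]
  · intro i z hz u v x
    have h : ∀ y ∈ ball (0 : Cm d) 3, ContDiffAt ℝ ∞ (a i) y := fun y hy =>
      ha.smooth i y hy (mem_univ _)
    show fderiv ℝ (fun z => cj (a i z)) z u v x + fderiv ℝ (fun z => cj (a i z)) z v x u +
      fderiv ℝ (fun z => cj (a i z)) z x u v = 0
    rw [fderiv_cj isOpen_ball h hz, fderiv_cj isOpen_ball h hz, fderiv_cj isOpen_ball h hz,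
      ← map_add, ← map_add, ha.closed i z hz u v x,
      map_zero]

/-! ### Kähler metrics -/

theorem kf_eq_kfd (w : Matrix (Fin d) (Fin d) ℂ) : kf w = H834.HK.kfd w :=
  ContinuousLinearMap.ext fun u => ContinuousLinearMap.ext fun v => (H834.HK.kfd_apply w u v).symm

theorem kw_eq {w : Fin S.N → Cm d → Matrix (Fin d) (Fin d) ℂ} :
    kw w = fun i z => H834.HK.kfd (w i z) := by
  funext i z
  exact kf_eq_kfd _

theorem kw_cl2 {w : Fin S.N → Cm d → Matrix (Fin d) (Fin d) ℂ} (hw : Kah S w) :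
    Cl2 S (kw w) := by
  rw [kw_eq]
  exact H834.HK.kah_cl2 hw

theorem kw_real2 {w : Fin S.N → Cm d → Matrix (Fin d) (Fin d) ℂ} (hw : Kah S w) :
    Real2 S (kw w) := by
  rw [kw_eq]
  exact H834.HK.kah_real2 hw

end

/-- **I0** -/
theorem forms : FormsStmt := by
  intro d E Γ _ _ _ _ _ _ S _
  exact ⟨fun s hs => ts_cl2 hs, fun w hw => ⟨kw_cl2 hw, kw_real2 hw⟩, fun a ha => cjs_cl2 ha⟩

end Vale.Agent.P281.H406.HK
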