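import Vale.Agent.P301.H85.SC.Closed
import Vale.Agent.P301.H85.SC.Lef
import Vale.Agent.P301.H599.Stmt

/-!
# P281, T-HK, block CL (helper406): holomorphic 2-forms on a compact Kähler manifold are closed
(in charts)
-/

open scoped Manifold ContDiff ComplexOrder Topology Matrix
open Set Filter Metric
open Vale.Agent.P272.K Vale.Agent.P272.K.C2 Vale.Agent.P299.IX Vale.Agent.P299.IX.Fock
open Vale.Agent.P301.H85 Vale.Agent.P301.H599

noncomputable section

namespace Vale.Agent.P281.H406.HK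

variable {d : ℕ}

/-- the form `½ Σ a_{ij} dz_i ∧ dz_j` -/
def tf (a : Matrix (Fin d) (Fin d) ℂ) : FI d → ℂ := Sop a *ᵥ ev ∅

theorem tf_eq (a : Matrix (Fin d) (Fin d) ℂ) (I : FI d) :
    tf a I = ∑ i, ∑ j, a i j * ((1 / 2 : ℂ) * (eps i *ᵥ (eps j *ᵥ ev ∅)) I) := by
  rw [tf, Sop, Matrix.smul_mulVec, Matrix.sum_mulVec, Pi.smul_apply, Finset.sum_apply, smul_eq_mul,
    Finset.mul_sum]
  refine Finset.sum_congr rfl fun i _ => ?_
  rw [← Matrix.mulVec_mulVec, epsV, Matrix.sum_mulVec, Matrix.mulVec_sum, Finset.sum_apply,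
    Finset.mul_sum]
  refine Finset.sum_congr rfl fun j _ => ?_
  rw [Matrix.smul_mulVec, Matrix.mulVec_smul, Pi.smul_apply, smul_eq_mul]
  ring

theorem iot_tf {a : Matrix (Fin d) (Fin d) ℂ} (ha : aᵀ = -a) (k : Fin d) :
    iot k *ᵥ tf a = epsV (a k) *ᵥ ev ∅ := by
  rw [tf, Matrix.mulVec_mulVec, iot_Sop ha, Matrix.add_mulVec, ← Matrix.mulVec_mulVec,
    iot_ev_empty, Matrix.mulVec_zero, zero_add]

theorem iot_epsV_ev (a : Fin d → ℂ) (j : Fin d) :
    iot j *ᵥ (epsV a *ᵥ ev ∅) = a j • (ev ∅ : FI d → ℂ) := by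
  have h1 : iot j * epsV a = a j • (1 : FM d) - epsV a * iot j := by
    rw [← iot_epsV j a]; abel
  rw [Matrix.mulVec_mulVec, h1, Matrix.sub_mulVec, ← Matrix.mulVec_mulVec, iot_ev_empty,
    Matrix.mulVec_zero, sub_zero, Matrix.smul_mulVec, Matrix.one_mulVec]

theorem iot_eps_mulVec (k l : Fin d) (v : FI d → ℂ) :
    iot k *ᵥ (eps l *ᵥ v) = (if k = l then v else 0) - eps l *ᵥ (iot k *ᵥ v) := by
  have h1 : iot k * eps l = (if k = l then 1 else 0) - eps l * iot k := by
    rw [← car k l]; abel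
  rw [Matrix.mulVec_mulVec, h1, Matrix.sub_mulVec, ← Matrix.mulVec_mulVec]
  split_ifs
  · rw [Matrix.one_mulVec]
  · rw [Matrix.zero_mulVec]

/-- The coefficients of `Σ dz_l ∧ (½ Σ (a_l)_{ij} dz_i ∧ dz_j)`. -/
theorem cyc_of_zero {a : Fin d → Matrix (Fin d) (Fin d) ℂ} (ha : ∀ l, (a l)ᵀ = -a l)
    (h : ∑ l, eps l *ᵥ tf (a l) = 0) (i j k : Fin d) :
    a i j k + a j k i + a k i j = 0 := by
  have hanti : ∀ l p q, a l p q = -a l q p := by
    intro l p q
    have := congrFun (congrFun (ha l) q) p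
    simpa [Matrix.transpose_apply] using this
  have h1 : (iot i *ᵥ (iot j *ᵥ (iot k *ᵥ ∑ l, eps l *ᵥ tf (a l)))) ∅ = 0 := by
    rw [h]; simp
  have h2 : ∀ l, (iot i *ᵥ (iot j *ᵥ (iot k *ᵥ (eps l *ᵥ tf (a l))))) ∅ =
      (if k = l then a l j i else 0) - (if j = l then a l k i else 0) +
        (if i = l then a l k j else 0) := by
    intro l
    have e0 : ∀ q : Fin d, (ev ∅ : FI d → ℂ) ∅ = 1 := fun q => by simp [ev]
    have e1 := e0 i
    have e2 : iot j *ᵥ (iot k *ᵥ (eps l *ᵥ tf (a l))) =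
        (if k = l then epsV (a l j) *ᵥ ev ∅ else 0) - ((if j = l then epsV (a l k) *ᵥ ev ∅ else 0) -
          a l k j • (eps l *ᵥ ev ∅)) := by
      rw [iot_eps_mulVec, Matrix.mulVec_sub, iot_tf (ha l), iot_eps_mulVec, iot_epsV_ev,
        Matrix.mulVec_smul]
      congr 1
      split_ifs
      · exact iot_tf (ha l) j
      · rw [Matrix.mulVec_zero]
    rw [e2, Matrix.mulVec_sub, Matrix.mulVec_sub, Matrix.mulVec_smul, iot_eps_mulVec,
      iot_ev_empty, Matrix.mulVec_zero, sub_zero]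
    have e3 : ∀ (P : Prop) [Decidable P] (v : FI d → ℂ),
        iot i *ᵥ (if P then v else 0) = if P then iot i *ᵥ v else 0 := by
      intro P _ v
      split_ifs
      · rfl
      · rw [Matrix.mulVec_zero]
    rw [e3, e3, iot_epsV_ev, iot_epsV_ev]
    simp only [Pi.sub_apply, Pi.smul_apply, smul_eq_mul]
    have e4 : ∀ (P : Prop) [Decidable P] (c : ℂ),
        (if P then c • (ev ∅ : FI d → ℂ) else 0) ∅ = if P then c else 0 := by
      intro P _ c
      split_ifs
      · rw [Pi.smul_apply, e1, smul_eq_mul, mul_one]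
      · rfl
    have e5 : (if i = l then (ev ∅ : FI d → ℂ) else 0) ∅ = if i = l then (1 : ℂ) else 0 := by
      split_ifs
      · exact e1
      · rfl
    rw [e4, e4, e5]
    split_ifs <;> ring
  rw [Matrix.mulVec_sum, Matrix.mulVec_sum, Matrix.mulVec_sum, Finset.sum_apply,
    Finset.sum_congr rfl fun l _ => h2 l, Finset.sum_add_distrib, Finset.sum_sub_distrib,
    Finset.sum_ite_eq, Finset.sum_ite_eq, Finset.sum_ite_eq] at h1
  simp only [Finset.mem_univ, if_true] at h1
  have h3 := hanti k j i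
  have h4 := hanti i k j
  rw [h3, h4] at h1
  linear_combination -h1

variable {X : Type} [TopologicalSpace X] [ChartedSpace (Cm d) X]
  {w s : Chart d X → Cm d → Matrix (Fin d) (Fin d) ℂ} {e : Chart d X} {x : X}

/-- a holomorphic 2-form, in the Fock encoding -/
theorem isHolF_tf (hs : IsHolTwoForm s) : IsHolF 2 (fun e z => tf (s e z)) where
  holo e x hx I := by
    simp only [tf_eq]
    refine Finset.analyticAt_fun_sum _ fun i _ => Finset.analyticAt_fun_sum _ fun j _ => ?_
    exact (hs.holo e x hx i j).mul analyticAt_const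
  change e e' x hx hx' := by
    show tf (s e (e x)) = lam (jacM e e' x)ᵀ *ᵥ tf (s e' (e' x))
    rw [tf, tf, Matrix.mulVec_mulVec, lam_Sop, ← Matrix.mulVec_mulVec, lam_ev_empty,
      hs.change e e' x hx hx', Matrix.transpose_transpose]
  deg e x hx I hI := by
    have h1 := sPow_deg (s := s e (e x)) 1 (I := I) (by simpa using hI)
    rw [sPow, pow_one] at h1
    exact h1

theorem ev_at {e : Chart d X} {x : X} (hx : At e x) :
    ∀ᶠ z in 𝓝 (e x), At e (e.symm z) ∧ e (e.symm z) = z := eventually_at hx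

variable [IsManifold 𝓘(ℂ, Cm d) ω X] [T2Space X] [CompactSpace X]

/-- **Holomorphic 2-forms on a compact Kähler manifold are closed.** -/
theorem closed_two (hw : IsKahler w) (hs : IsHolTwoForm s) (hx : At e x) (i j k : Fin d) :
    dz i (fun z => s e z j k) (e x) + dz j (fun z => s e z k i) (e x) +
      dz k (fun z => s e z i j) (e x) = 0 := by
  have h1 := (isHolF_tf hs).dp_zero hw hx
  have hd : ∀ p q, DifferentiableAt ℝ (fun z => s e z p q) (e x) := fun p q =>
    (hs.holo e x hx p q).differentiableAt.restrictScalars ℝ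
  set a : Fin d → Matrix (Fin d) (Fin d) ℂ := fun l =>
    Matrix.of fun p q => dz l (fun z => s e z p q) (e x) with ha
  have h2 : ∀ l, DV l (fun z => tf (s e z)) (e x) = tf (a l) := by
    intro l
    ext I
    show dz l (fun z => tf (s e z) I) (e x) = tf (a l) I
    simp only [tf_eq]
    rw [dz_sum l Finset.univ fun p _ => DifferentiableAt.fun_sum fun q _ =>
      (hd p q).mul_const _]
    refine Finset.sum_congr rfl fun p _ => ?_
    rw [dz_sum l Finset.univ fun q _ => (hd p q).mul_const _]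
    refine Finset.sum_congr rfl fun q _ => ?_
    rw [dz_mul_const l _ (hd p q)]
    rfl
  have h3 : ∀ l, (a l)ᵀ = -a l := by
    intro l
    ext p q
    show dz l (fun z => s e z q p) (e x) = -dz l (fun z => s e z p q) (e x)
    rw [← C2.dz_neg]
    refine dz_congr l ?_
    filter_upwards [ev_at hx] with z hz
    have h4 := congrFun (congrFun (hs.alt e _ hz.1) p) q
    rw [hz.2] at h4
    simpa using h4
  refine cyc_of_zero h3 ?_ i j k
  rw [← h1]
  exact Finset.sum_congr rfl fun l _ => by rw [h2 l]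

end Vale.Agent.P281.H406.HK
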